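import Vale.Agent.P192.Bounded

/-!
Finitely presented periodic groups act on thin Schreier graphs only through finite sets.
-/

namespace Vale.Agent.Results.P192.PeriodicThinOrbits

open Vale.Agent.P192

universe v w

theorem result (G : Type v) [Group G] [Group.IsFinitelyPresented G]
    (hG : (∀ g : G, IsOfFinOrder g) ∨
      ∀ N : Subgroup G, N.FiniteIndex → ∀ χ : N →* Multiplicative ℤ, χ = 1) :
    (∀ (X : Type w) [MulAction G X] [MulAction.IsPretransitive G X]
      (S : Finset G), Subgroup.closure (S : Set G) = ⊤ → ∀ b : ℕ,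
        (∀ A : Finset X, ∃ F : Finset X, A ⊆ F ∧
          {x ∈ (F : Set X) | ∃ s ∈ S, s • x ∉ F ∨ s⁻¹ • x ∉ F}.ncard ≤ b) → Finite X) ∧
    (∀ (X : Type w) [MulAction G X] [MulAction.IsPretransitive G X]
      (S : Finset G), Subgroup.closure (S : Set G) = ⊤ →
      ∀ (x₀ : X) (c : ℕ) (ball : ℕ → Finset X), x₀ ∈ ball 0 →
        (∀ k, ∀ x ∈ ball k, x ∈ ball (k + 1) ∧
          ∀ s ∈ S, s • x ∈ ball (k + 1) ∧ s⁻¹ • x ∈ ball (k + 1)) →
        (∀ N, ∃ k, N ≤ k ∧ (ball k).card ≤ c * k) → Finite X) ∧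
    ∀ (Y : Type w) (ψ : Equiv.Perm Y) (f : G →* Equiv.Perm Y),
      (∀ g, ∃ d : ℕ, ∀ y, ∃ k : ℤ, k.natAbs ≤ d ∧ f g y = (ψ ^ k) y) →
        (Set.range f).Finite := by
  have hv : ∀ N : Subgroup G, N.FiniteIndex → ∀ χ : N →* Multiplicative ℤ, χ = 1 := by
    rcases hG with h | h
    · exact fun N _ χ => torsion_no_hom_int h N χ
    · exact h
  exact ⟨fun X _ _ S hS b hex => finite_of_thin hv S hS b hex,
    fun X _ _ S hS x₀ c ball h₀ hstep hlin =>
      finite_of_thin hv S hS (2 * c) fun A => thin_of_linear S hS x₀ c ball h₀ hstep hlin A,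
    fun Y ψ f hf => finite_range_of_bounded hv ψ f hf⟩

end Vale.Agent.Results.P192.PeriodicThinOrbits
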